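import Mathlib

/-!
Helper75: elementary real inequalities used in the 1-D core of S0423.
-/

open Real

namespace Crest.Agent.Helper75

/-- `exp (4/3) < 4`. -/
theorem exp_four_thirds_lt : Real.exp (4 / 3) < 4 := by
  have h1 : Real.exp 1 < 2.7182818286 := Real.exp_one_lt_d9
  have h3 : (Real.exp (4 / 3)) ^ 3 = (Real.exp 1) ^ 4 := by
    rw [← Real.exp_nat_mul, ← Real.exp_nat_mul]
    norm_num
  have h4 : (Real.exp 1) ^ 4 < 64 := by
    have hpos : 0 < Real.exp 1 := Real.exp_pos 1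
    have : (Real.exp 1) ^ 4 < (2.7182818286 : ℝ) ^ 4 := by
      gcongr
    have h5 : (2.7182818286 : ℝ) ^ 4 < 64 := by norm_num
    linarith
  by_contra hcon
  push Not at hcon
  have h6 : (4 : ℝ) ^ 3 ≤ (Real.exp (4 / 3)) ^ 3 := by gcongr
  have h7 : (64 : ℝ) ≤ (Real.exp 1) ^ 4 := by
    calc (64 : ℝ) = 4 ^ 3 := by norm_num
      _ ≤ (Real.exp (4 / 3)) ^ 3 := h6
      _ = (Real.exp 1) ^ 4 := h3
  linarith

/-- `1/4 < exp (-(4/3))`. -/
theorem quarter_lt_exp_neg : (1 / 4 : ℝ) < Real.exp (-(4 / 3)) := by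
  rw [Real.exp_neg]
  have h := exp_four_thirds_lt
  have hpos : 0 < Real.exp (4 / 3) := Real.exp_pos _
  rw [lt_inv_comm₀ (by norm_num) hpos]
  norm_num
  exact h

/-- The key one-variable inequality: for `x ≥ 4/3`, `1 - e^{-x} ≤ x²/(1+x)`. -/
theorem key_ineq (x : ℝ) (hx : 4 / 3 ≤ x) : 1 - Real.exp (-x) ≤ x ^ 2 / (1 + x) := by
  have hx1 : 0 < 1 + x := by linarith
  rw [le_div_iff₀ hx1]
  have hexp_pos : 0 < Real.exp (-x) := Real.exp_pos _
  by_cases hcase : 7 / 3 ≤ x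
  · nlinarith
  · push Not at hcase
    have hE : (1 / 4 : ℝ) < Real.exp (-(4 / 3)) := quarter_lt_exp_neg
    have hsplit : Real.exp (-x) = Real.exp (-(4 / 3)) * Real.exp (-(x - 4 / 3)) := by
      rw [← Real.exp_add]; congr 1; ring
    have hlin : 1 - (x - 4 / 3) ≤ Real.exp (-(x - 4 / 3)) := by
      have := Real.add_one_le_exp (-(x - 4 / 3))
      linarith
    have h73 : 0 < 7 / 3 - x := by linarith
    have hlow : Real.exp (-(4 / 3)) * (7 / 3 - x) ≤ Real.exp (-x) := by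
      rw [hsplit]
      have hE0 : 0 ≤ Real.exp (-(4 / 3)) := (Real.exp_pos _).le
      have : 7 / 3 - x ≤ Real.exp (-(x - 4 / 3)) := by linarith
      exact mul_le_mul_of_nonneg_left this hE0
    have hq : (1 / 4 : ℝ) * (7 / 3 - x) ≤ Real.exp (-x) := by
      have : (1 / 4 : ℝ) * (7 / 3 - x) ≤ Real.exp (-(4 / 3)) * (7 / 3 - x) :=
        mul_le_mul_of_nonneg_right hE.le h73.le
      linarith
    -- (1 - e^{-x}) (1+x) ≤ x^2  ⟸  e^{-x}(1+x) ≥ 1 + x - x^2
    have : (1 / 4 : ℝ) * (7 / 3 - x) * (1 + x) ≤ Real.exp (-x) * (1 + x) :=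
      mul_le_mul_of_nonneg_right hq hx1.le
    nlinarith

/-- Final algebra of the 1-D core. -/
theorem final_algebra (p a b d : ℝ) (hp : 0 < p) (hp1 : p ≤ 1) (ha : 0 < a)
    (h1 : 4 / 3 * p ≤ a * (1 + Real.log p))
    (h2 : b * (a - b) ≤ a * d)
    (h4 : b ≤ p * (1 - Real.exp (-(a / p))))
    (h5 : p * (a - b) ≤ a * b) :
    4 / 9 * Real.exp (-(1 / 3)) ≤ d := by
  set L := 1 + Real.log p with hL
  have hlogp : Real.log p ≤ 0 := Real.log_nonpos hp.le hp1
  have hL1 : L ≤ 1 := by linarith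
  have hLpos : 0 < L := by
    by_contra hcon
    push Not at hcon
    have : a * L ≤ 0 := mul_nonpos_of_nonneg_of_nonpos ha.le hcon
    nlinarith
  have hap : 0 < a + p := by linarith
  -- x = a / p ≥ 4/3
  have hx : 4 / 3 ≤ a / p := by
    rw [le_div_iff₀ hp]
    nlinarith
  -- θ ≤ b
  have hθ : a * p / (a + p) ≤ b := by
    rw [div_le_iff₀ hap]
    nlinarith
  -- b ≤ a - θ
  have hkey := key_ineq (a / p) hx
  have hb2 : b ≤ a ^ 2 / (a + p) := by
    have h41 : p * (1 - Real.exp (-(a / p))) ≤ p * ((a / p) ^ 2 / (1 + a / p)) :=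
      mul_le_mul_of_nonneg_left hkey hp.le
    have h42 : p * ((a / p) ^ 2 / (1 + a / p)) = a ^ 2 / (a + p) := by
      field_simp
      ring
    linarith
  -- b (a - b) ≥ θ (a - θ)
  have hθ2 : a * p / (a + p) * (a ^ 2 / (a + p)) ≤ b * (a - b) := by
    have e1 : a ^ 2 / (a + p) = a - a * p / (a + p) := by
      field_simp; ring
    have h6 : 0 ≤ (b - a * p / (a + p)) * (a ^ 2 / (a + p) - b) :=
      mul_nonneg (by linarith) (by linarith)
    rw [e1] at h6 ⊢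
    nlinarith
  -- d ≥ p (a/(a+p))^2
  have hd : p * (a / (a + p)) ^ 2 ≤ d := by
    have h7 : a * p / (a + p) * (a ^ 2 / (a + p)) = a * (p * (a / (a + p)) ^ 2) := by
      field_simp
    have h8 : a * (p * (a / (a + p)) ^ 2) ≤ a * d := by linarith
    exact le_of_mul_le_mul_left h8 ha
  -- a/(a+p) ≥ c/(c+L)
  have hfrac : (4 / 3) / (4 / 3 + L) ≤ a / (a + p) := by
    rw [div_le_div_iff₀ (by linarith) hap]
    nlinarith
  have hfrac0 : 0 ≤ (4 / 3) / (4 / 3 + L) := by positivity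
  have hd2 : p * ((4 / 3) / (4 / 3 + L)) ^ 2 ≤ d := by
    have : ((4 / 3) / (4 / 3 + L)) ^ 2 ≤ (a / (a + p)) ^ 2 := by gcongr
    have := mul_le_mul_of_nonneg_left this hp.le
    linarith
  -- final: p (c/(c+L))^2 ≥ (4/9) e^{-1/3}
  have hpexp : p = Real.exp (L - 1) := by
    rw [hL]; simp [Real.exp_log hp]
  have hq : 1 + (L - 2 / 3) / 2 ≤ Real.exp ((L - 2 / 3) / 2) := by
    have := Real.add_one_le_exp ((L - 2 / 3) / 2)
    linarith
  have hq0 : 0 < 1 + (L - 2 / 3) / 2 := by linarith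
  have hsq : (1 + (L - 2 / 3) / 2) ^ 2 ≤ Real.exp (L - 2 / 3) := by
    have h9 : (1 + (L - 2 / 3) / 2) ^ 2 ≤ (Real.exp ((L - 2 / 3) / 2)) ^ 2 := by gcongr
    have h10 : (Real.exp ((L - 2 / 3) / 2)) ^ 2 = Real.exp (L - 2 / 3) := by
      rw [← Real.exp_nat_mul]; congr 1; ring
    linarith
  have hfin : 4 / 9 * Real.exp (-(1 / 3)) ≤ p * ((4 / 3) / (4 / 3 + L)) ^ 2 := by
    have e2 : p = Real.exp (L - 2 / 3) * Real.exp (-(1 / 3)) := by
      rw [hpexp, ← Real.exp_add]; congr 1; ring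
    have hpos13 : 0 < Real.exp (-(1 / 3)) := Real.exp_pos _
    have hcL : 0 < 4 / 3 + L := by linarith
    rw [e2]
    have e3 : Real.exp (L - 2 / 3) * Real.exp (-(1 / 3)) * ((4 / 3) / (4 / 3 + L)) ^ 2
        = Real.exp (-(1 / 3)) * (Real.exp (L - 2 / 3) * (16 / 9) / (4 / 3 + L) ^ 2) := by
      field_simp
      norm_num
    rw [e3]
    have h11 : (4 / 9 : ℝ) ≤ Real.exp (L - 2 / 3) * (16 / 9) / (4 / 3 + L) ^ 2 := by
      rw [le_div_iff₀ (by positivity)]
      nlinarith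
    nlinarith
  linarith

end Crest.Agent.Helper75
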