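import Mathlib
import Crest.Agent.Helper75.CoreAlg

/-!
Helper75: 1-D core of S0423, part 1: basic integrability, the mean bound, and fact (1)
`a (1 + log p) ≥ (4/3) p`.
-/

open MeasureTheory Set Real Filter

namespace Crest.Agent.Helper75

/-- Translation on half-lines. -/
theorem integral_Ioi_comp_add (f : ℝ → ℝ) (x c : ℝ) :
    ∫ v in Ioi c, f (v + x) = ∫ w in Ioi (c + x), f w := by
  have h1 : ∫ v in Ioi c, f (v + x) = ∫ v, (Ioi (c + x)).indicator f (v + x) := by
    rw [← integral_indicator measurableSet_Ioi]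
    congr 1
    ext v
    simp only [indicator, mem_Ioi]
    by_cases h : c < v
    · have : c + x < v + x := by linarith
      simp [h, this]
    · have : ¬ (c + x < v + x) := by linarith
      simp [h, this]
  rw [h1, integral_add_right_eq_self (fun w => (Ioi (c + x)).indicator f w),
    integral_indicator measurableSet_Ioi]

/-- Translation preserves integrability on half-lines. -/
theorem integrableOn_Ioi_comp_add {f : ℝ → ℝ} {x c : ℝ} (hf : IntegrableOn f (Ioi (c + x))) :
    IntegrableOn (fun v => f (v + x)) (Ioi c) := by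
  rw [← integrable_indicator_iff measurableSet_Ioi] at hf ⊢
  have h2 := hf.comp_add_right x
  refine h2.congr (Eventually.of_forall fun v => ?_)
  simp only [indicator, mem_Ioi]
  by_cases h : c < v
  · have : c + x < v + x := by linarith
    simp [h, this]
  · have : ¬ (c + x < v + x) := by linarith
    simp [h, this]

section Core

variable {S : ℝ → ℝ}

theorem intOn_S (hint : Integrable (fun v => S v - Set.indicator (Set.Iio 0) 1 v)) :
    IntegrableOn S (Ioi 0) := by
  have h := hint.integrableOn (s := Ioi 0)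
  refine h.congr_fun (fun v hv => ?_) measurableSet_Ioi
  have : ¬ (v < 0) := not_lt.mpr (le_of_lt hv)
  simp [indicator, this]

theorem intervalIntegrable_S (hmeas : Measurable S) (h0 : ∀ v, 0 ≤ S v) (h1 : ∀ v, S v ≤ 1)
    (a b : ℝ) : IntervalIntegrable S volume a b := by
  have hc : IntervalIntegrable (fun _ : ℝ => (1 : ℝ)) volume a b := intervalIntegrable_const
  refine hc.mono_fun hmeas.aestronglyMeasurable (Eventually.of_forall fun v => ?_)
  simp only [norm_one, Real.norm_eq_abs]
  rw [abs_of_nonneg (h0 v)]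
  exact h1 v

theorem intOn_S_Ioi (hmeas : Measurable S) (h0 : ∀ v, 0 ≤ S v) (h1 : ∀ v, S v ≤ 1)
    (hint : Integrable (fun v => S v - Set.indicator (Set.Iio 0) 1 v)) (u : ℝ) :
    IntegrableOn S (Ioi u) := by
  have hS := intOn_S hint
  rcases le_total 0 u with hu | hu
  · exact hS.mono_set (Ioi_subset_Ioi hu)
  · have hsplit : Ioi u = Ioc u 0 ∪ Ioi 0 := (Ioc_union_Ioi_eq_Ioi hu).symm
    rw [hsplit]
    refine IntegrableOn.union ?_ hS
    have := (intervalIntegrable_S hmeas h0 h1 u 0).1
    exact this

theorem intOn_one_sub_S (hint : Integrable (fun v => S v - Set.indicator (Set.Iio 0) 1 v)) :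
    IntegrableOn (fun v => 1 - S v) (Iio 0) := by
  have h := (hint.integrableOn (s := Iio 0)).neg
  refine h.congr_fun (fun v hv => ?_) measurableSet_Iio
  have : v < 0 := hv
  simp [indicator, this]

/-- The mean identity: `∫_{v>0} S - ∫_{v<0} (1 - S) = 4/3`. -/
theorem mean_split (hint : Integrable (fun v => S v - Set.indicator (Set.Iio 0) 1 v))
    (hmean : ∫ v, (S v - Set.indicator (Set.Iio 0) 1 v) = 4 / 3) :
    (∫ v in Ioi 0, S v) - (∫ v in Iio 0, (1 - S v)) = 4 / 3 := by
  have hsplit := intervalIntegral.integral_Iic_add_Ioi (hint.integrableOn (s := Iic 0)) (hint.integrableOn (s := Ioi 0))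
  rw [hmean, integral_Iic_eq_integral_Iio] at hsplit
  have e1 : ∫ v in Iio 0, (S v - Set.indicator (Set.Iio 0) 1 v) = - ∫ v in Iio 0, (1 - S v) := by
    rw [← integral_neg]
    refine setIntegral_congr_fun measurableSet_Iio (fun v hv => ?_)
    have : v < 0 := hv
    simp [indicator, this]
  have e2 : ∫ v in Ioi 0, (S v - Set.indicator (Set.Iio 0) 1 v) = ∫ v in Ioi 0, S v := by
    refine setIntegral_congr_fun measurableSet_Ioi (fun v hv => ?_)
    have : ¬ (v < 0) := not_lt.mpr (le_of_lt hv)
    simp [indicator, this]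
  rw [e1, e2] at hsplit
  linarith

/-- Mean bound: for `v ≥ 0`, `4/3 ≤ a - v + ∫_{-v}^0 S`. -/
theorem mean_bound (hmeas : Measurable S) (h0 : ∀ v, 0 ≤ S v) (h1 : ∀ v, S v ≤ 1)
    (hint : Integrable (fun v => S v - Set.indicator (Set.Iio 0) 1 v))
    (hmean : ∫ v, (S v - Set.indicator (Set.Iio 0) 1 v) = 4 / 3) (v : ℝ) (hv : 0 ≤ v) :
    4 / 3 ≤ (∫ w in Ioi 0, S w) - v + ∫ w in (-v)..0, S w := by
  have hms := mean_split hint hmean
  have hn : ∫ w in Ioo (-v) 0, (1 - S w) ≤ ∫ w in Iio 0, (1 - S w) := by
    refine setIntegral_mono_set (intOn_one_sub_S hint) ?_ ?_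
    · exact (ae_restrict_of_forall_mem measurableSet_Iio (fun w _ => by
        show (0 : ℝ) ≤ 1 - S w
        linarith [h1 w]))
    · exact (Eventually.of_forall (fun w hw => hw.2))
  have hII : IntervalIntegrable S volume (-v) 0 := intervalIntegrable_S hmeas h0 h1 _ _
  have e1 : ∫ w in Ioo (-v) 0, (1 - S w) = v - ∫ w in (-v)..0, S w := by
    rw [← integral_Ioc_eq_integral_Ioo, ← intervalIntegral.integral_of_le (by linarith),
      intervalIntegral.integral_sub intervalIntegrable_const hII]
    simp
  linarith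

/-- Integrated four-point inequality on the negative side. -/
theorem four_int (hmeas : Measurable S) (h0 : ∀ v, 0 ≤ S v) (h1 : ∀ v, S v ≤ 1)
    (h4 : ∀ x y h, x ≤ y → 0 ≤ h → S x * S (y + h) ≤ S (x + h) * S y)
    (hint : Integrable (fun v => S v - Set.indicator (Set.Iio 0) 1 v)) (u : ℝ) (hu : u ≤ 0) :
    S u * (∫ v in Ioi 0, S v) ≤ S 0 * ((∫ v in Ioi 0, S v) + ∫ w in u..0, S w) := by
  have hS := intOn_S hint
  have hSu := intOn_S_Ioi hmeas h0 h1 hint u
  have hshift : IntegrableOn (fun v => S (v + u)) (Ioi 0) :=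
    integrableOn_Ioi_comp_add (by simpa using hSu)
  have hle : ∫ v in Ioi 0, S u * S v ≤ ∫ v in Ioi 0, S 0 * S (v + u) := by
    refine setIntegral_mono_on (hS.const_mul _) (hshift.const_mul _) measurableSet_Ioi ?_
    intro v hv
    have hv0 : (0 : ℝ) < v := hv
    have := h4 u (u + v) (-u) (by linarith) (by linarith)
    have e1 : u + v + -u = v := by ring
    have e2 : u + -u = 0 := by ring
    rw [e1, e2] at this
    have e3 : v + u = u + v := by ring
    rw [e3]
    linarith
  rw [integral_const_mul, integral_const_mul, integral_Ioi_comp_add S u 0] at hle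
  have hsub := intervalIntegral.integral_Ioi_sub_Ioi hSu hu
  have e4 : (0 : ℝ) + u = u := by ring
  rw [e4] at hle
  have : ∫ w in Ioi u, S w = (∫ v in Ioi 0, S v) + ∫ w in u..0, S w := by linarith
  rw [this] at hle
  exact hle

end Core

end Crest.Agent.Helper75
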