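import Mathlib
import Crest.Agent.Helper75.Core1

/-!
Helper75: 1-D core of S0423, part 2: Gronwall on the negative side and fact (1).
-/

open MeasureTheory Set Real Filter

namespace Crest.Agent.Helper75

section Core

variable {S : ℝ → ℝ}

/-- Gronwall bound on the negative side: `a + ∫_{-v}^0 S ≤ a e^{(p/a) v}`. -/
theorem gron (hmeas : Measurable S) (hanti : Antitone S) (h0 : ∀ v, 0 ≤ S v) (h1 : ∀ v, S v ≤ 1)
    (h4 : ∀ x y h, x ≤ y → 0 ≤ h → S x * S (y + h) ≤ S (x + h) * S y)
    (hint : Integrable (fun v => S v - Set.indicator (Set.Iio 0) 1 v))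
    (ha : 0 < ∫ v in Ioi 0, S v) (v : ℝ) (hv : 0 ≤ v) :
    (∫ w in Ioi 0, S w) + ∫ w in (-v)..0, S w
      ≤ (∫ w in Ioi 0, S w) * Real.exp (S 0 / (∫ w in Ioi 0, S w) * v) := by
  set a := ∫ w in Ioi 0, S w with ha_def
  set f : ℝ → ℝ := fun v => a + ∫ w in (-v)..0, S w with hf_def
  have hII : ∀ c d : ℝ, IntervalIntegrable S volume c d := intervalIntegrable_S hmeas h0 h1
  have hcont : Continuous f := by
    have hprim : Continuous (fun u : ℝ => ∫ w in (0:ℝ)..u, S w) :=
      intervalIntegral.continuous_primitive hII 0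
    have : f = fun v => a - ∫ w in (0:ℝ)..(-v), S w := by
      funext v
      simp only [hf_def]
      rw [intervalIntegral.integral_symm]
      ring
    rw [this]
    exact continuous_const.sub (hprim.comp continuous_neg)
  have hslope : ∀ x z : ℝ, 0 ≤ x → x < z → (z - x)⁻¹ * (f z - f x) ≤ S 0 / a * f z := by
    intro x z hx hxz
    have hzx : 0 < z - x := by linarith
    have e1 : f z - f x = ∫ w in (-z)..(-x), S w := by
      simp only [hf_def]
      have := intervalIntegral.integral_add_adjacent_intervals (hII (-z) (-x)) (hII (-x) 0)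
      linarith
    have e2 : ∫ w in (-z)..(-x), S w ≤ ∫ w in (-z)..(-x), S (-z) := by
      refine intervalIntegral.integral_mono_on (by linarith) (hII _ _) intervalIntegrable_const ?_
      intro w hw
      exact hanti hw.1
    have e3 : ∫ w in (-z)..(-x), S (-z) = (z - x) * S (-z) := by
      rw [intervalIntegral.integral_const, smul_eq_mul]
      ring
    have e4 := four_int hmeas h0 h1 h4 hint (-z) (by linarith)
    have e5 : S (-z) ≤ S 0 / a * f z := by
      rw [div_mul_eq_mul_div, le_div_iff₀ ha]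
      simpa [hf_def] using e4
    rw [e1]
    calc (z - x)⁻¹ * ∫ w in (-z)..(-x), S w ≤ (z - x)⁻¹ * ((z - x) * S (-z)) := by
          apply mul_le_mul_of_nonneg_left _ (inv_nonneg.mpr hzx.le)
          linarith
      _ = S (-z) := by field_simp
      _ ≤ S 0 / a * f z := e5
  have hg := le_gronwallBound_of_liminf_deriv_right_le (f := f) (f' := fun v => S 0 / a * f v)
    (δ := a) (K := S 0 / a) (ε := 0) (a := 0) (b := v) hcont.continuousOn ?_ ?_ ?_ v ⟨hv, le_rfl⟩
  · rw [gronwallBound_ε0] at hg
    simpa [hf_def] using hg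
  · intro x hx r hr
    have hcont' : Continuous (fun v => S 0 / a * f v) := continuous_const.mul hcont
    have hev : ∀ᶠ z in nhds x, S 0 / a * f z < r := hcont'.continuousAt.eventually (gt_mem_nhds hr)
    have hev2 : ∀ᶠ z in nhdsWithin x (Ioi x), (z - x)⁻¹ * (f z - f x) < r := by
      filter_upwards [nhdsWithin_le_nhds hev, self_mem_nhdsWithin] with z hz hzx
      exact lt_of_le_of_lt (hslope x z hx.1 hzx) hz
    exact hev2.frequently
  · simp [hf_def]
  · intro x _
    simp

/-- Positivity of `a` and `p`, and fact (1): `(4/3) p ≤ a (1 + log p)`. -/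
theorem fact1 (hmeas : Measurable S) (hanti : Antitone S) (h0 : ∀ v, 0 ≤ S v) (h1 : ∀ v, S v ≤ 1)
    (h4 : ∀ x y h, x ≤ y → 0 ≤ h → S x * S (y + h) ≤ S (x + h) * S y)
    (hint : Integrable (fun v => S v - Set.indicator (Set.Iio 0) 1 v))
    (hmean : ∫ v, (S v - Set.indicator (Set.Iio 0) 1 v) = 4 / 3) :
    0 < S 0 ∧ 0 < (∫ v in Ioi 0, S v) ∧
      4 / 3 * S 0 ≤ (∫ v in Ioi 0, S v) * (1 + Real.log (S 0)) := by
  set a := ∫ w in Ioi 0, S w with ha_def
  have hmb0 := mean_bound hmeas h0 h1 hint hmean 0 le_rfl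
  have ha : 0 < a := by
    simp at hmb0
    linarith
  have hp : 0 < S 0 := by
    by_contra hcon
    have hS0 : S 0 = 0 := le_antisymm (not_lt.mp hcon) (h0 0)
    have : a = 0 := by
      rw [ha_def]
      have : ∀ v ∈ Ioi (0:ℝ), S v = 0 := by
        intro v hv
        have : S v ≤ S 0 := hanti (le_of_lt hv)
        linarith [h0 v]
      rw [setIntegral_congr_fun measurableSet_Ioi this]
      simp
    linarith
  refine ⟨hp, ha, ?_⟩
  set p := S 0 with hp_def
  have hp1 : p ≤ 1 := h1 0
  -- choose v₀ = (a/p) log (1/p)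
  set v₀ := a / p * Real.log (1 / p) with hv₀
  have hlog : 0 ≤ Real.log (1 / p) := by
    apply Real.log_nonneg
    rw [le_div_iff₀ hp]
    linarith
  have hv₀0 : 0 ≤ v₀ := mul_nonneg (div_pos ha hp).le hlog
  have hmb := mean_bound hmeas h0 h1 hint hmean v₀ hv₀0
  have hgr := gron hmeas hanti h0 h1 h4 hint ha v₀ hv₀0
  have hexp : Real.exp (p / a * v₀) = 1 / p := by
    have : p / a * v₀ = Real.log (1 / p) := by
      rw [hv₀]; field_simp
    rw [this, Real.exp_log (by positivity)]
  rw [hexp] at hgr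
  -- 4/3 ≤ a/p - v₀
  have h43 : 4 / 3 ≤ a * (1 / p) - v₀ := by linarith
  have hlog2 : Real.log (1 / p) = - Real.log p := by
    rw [one_div, Real.log_inv]
  rw [hv₀, hlog2] at h43
  have : a * (1 / p) - a / p * -Real.log p = a * (1 + Real.log p) / p := by
    field_simp
    ring
  rw [this, le_div_iff₀ hp] at h43
  linarith

end Core

end Crest.Agent.Helper75
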