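import Mathlib
import Crest.Agent.Helper75.Core2

/-!
Helper75: 1-D core of S0423, part 3: tail Fubini lemma.
-/

open MeasureTheory Set Real Filter

namespace Crest.Agent.Helper75

/-- Tail Fubini: `∫_{t>0} ρ(t) ∫_{w>t} φ(w) dw dt = ∫_{w>0} φ(w) ∫_{0<t<w} ρ(t) dt dw`, together
with integrability of the outer integrand on the left. -/
theorem fub_tail (ρ φ g₁ g₂ : ℝ → ℝ) (hρ : Measurable ρ) (hφ : Measurable φ)
    (hg₁ : IntegrableOn g₁ (Ioi 0)) (hg₂ : IntegrableOn g₂ (Ioi 0))
    (hbound : ∀ t w, 0 < t → t < w → |ρ t * φ w| ≤ g₁ t * g₂ w)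
    (hg₁0 : ∀ t, 0 < t → 0 ≤ g₁ t) (hg₂0 : ∀ w, 0 < w → 0 ≤ g₂ w) :
    IntegrableOn (fun t => ρ t * ∫ w in Ioi t, φ w) (Ioi 0) ∧
      ∫ t in Ioi 0, ρ t * (∫ w in Ioi t, φ w) = ∫ w in Ioi 0, φ w * (∫ t in Ioo 0 w, ρ t) := by
  set μ : Measure ℝ := volume.restrict (Ioi (0:ℝ)) with hμ
  set F : ℝ → ℝ → ℝ := fun t w => ρ t * (Ioi t).indicator φ w with hF
  have hF_eq : ∀ t w, F t w = ρ t * (if t < w then φ w else 0) := by
    intro t w
    simp only [hF, indicator, mem_Ioi]
  have hF_meas : Measurable (Function.uncurry F) := by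
    have : Function.uncurry F = fun z : ℝ × ℝ => ρ z.1 * (if z.1 < z.2 then φ z.2 else 0) := by
      funext z
      exact hF_eq z.1 z.2
    rw [this]
    refine (hρ.comp measurable_fst).mul ?_
    exact Measurable.ite (measurableSet_lt measurable_fst measurable_snd)
      (hφ.comp measurable_snd) measurable_const
  have hF_int : Integrable (Function.uncurry F) (μ.prod μ) := by
    have hdom : Integrable (fun z : ℝ × ℝ => g₁ z.1 * g₂ z.2) (μ.prod μ) :=
      Integrable.mul_prod hg₁ hg₂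
    refine hdom.mono' hF_meas.aestronglyMeasurable ?_
    rw [hμ, Measure.prod_restrict]
    refine ae_restrict_of_forall_mem (measurableSet_Ioi.prod measurableSet_Ioi) ?_
    rintro ⟨t, w⟩ ⟨ht, hw⟩
    have ht0 : (0:ℝ) < t := ht
    have hw0 : (0:ℝ) < w := hw
    simp only [Function.uncurry, Real.norm_eq_abs]
    rw [hF_eq]
    by_cases htw : t < w
    · simp only [htw, if_true]
      exact hbound t w ht0 htw
    · simp only [htw, if_false, mul_zero, abs_zero]
      exact mul_nonneg (hg₁0 t ht0) (hg₂0 w hw0)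
  have hswap := integral_integral_swap hF_int
  have hL : ∀ t ∈ Ioi (0:ℝ), ∫ w, F t w ∂μ = ρ t * ∫ w in Ioi t, φ w := by
    intro t ht
    have ht0 : (0:ℝ) < t := ht
    simp only [hF, hμ]
    rw [integral_const_mul, setIntegral_indicator measurableSet_Ioi, Ioi_inter_Ioi,
      sup_eq_right.mpr ht0.le]
  have hR : ∀ w ∈ Ioi (0:ℝ), ∫ t, F t w ∂μ = φ w * ∫ t in Ioo 0 w, ρ t := by
    intro w _
    have e1 : ∀ t, F t w = (Iio w).indicator (fun t => ρ t * φ w) t := by
      intro t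
      rw [hF_eq]
      simp only [indicator, mem_Iio]
      by_cases h : t < w <;> simp [h]
    simp only [e1, hμ]
    rw [setIntegral_indicator measurableSet_Iio, Ioi_inter_Iio, integral_mul_const]
    ring
  constructor
  · have h1 := hF_int.integral_prod_left
    have h2 : IntegrableOn (fun t => ∫ w, F t w ∂μ) (Ioi 0) := h1
    exact h2.congr_fun (fun t ht => hL t ht) measurableSet_Ioi
  · have e1 : ∫ t in Ioi 0, ρ t * (∫ w in Ioi t, φ w) = ∫ t, ∫ w, F t w ∂μ ∂μ := by
      rw [hμ]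
      exact (setIntegral_congr_fun measurableSet_Ioi (fun t ht => (hL t ht))).symm
    have e2 : ∫ w in Ioi 0, φ w * (∫ t in Ioo 0 w, ρ t) = ∫ w, ∫ t, F t w ∂μ ∂μ := by
      rw [hμ]
      exact (setIntegral_congr_fun measurableSet_Ioi (fun w hw => (hR w hw))).symm
    rw [e1, e2]
    exact hswap

end Crest.Agent.Helper75
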